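import Vale.Agent.Lib.P058.Main

/-!
# P058: the ratio of a subtransitive bisected quadrilateral is an algebraic number

If `σ` is a bad parameter of a triple of permutations and `σ` is transcendental, then every
`σ + n` (`n` a natural number) is a bad parameter as well: one transports a solution along an
additive map `θ : ℝ → ℝ` with `θ (σ y) = (σ + n) θ y`.  As the bad set is finite, `σ` is
algebraic.
-/

namespace Vale.Agent.Lib.P058

open Polynomial

/-- For a transcendental real `σ`, a natural number `n` and a nonzero real `c` there is an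
additive map `θ : ℝ → ℝ` with `θ (σ y) = (σ + n) θ y` for all `y` and `θ c ≠ 0`. -/
theorem exists_shift_map (σ : ℝ) (hσ : Transcendental ℚ σ) (n : ℕ) (c : ℝ) (hc : c ≠ 0) :
    ∃ θ : ℝ →+ ℝ, (∀ y, θ (σ * y) = (σ + n) * θ y) ∧ θ c ≠ 0 := by
  classical
  have ht : Transcendental ℚ (σ + n) := by
    intro halg
    apply hσ
    have h2 : IsAlgebraic ℚ (σ + (n : ℝ) - algebraMap ℚ ℝ (n : ℚ)) :=
      halg.sub (isAlgebraic_algebraMap _)
    simpa using h2
  have hinjσ : Function.Injective ((aeval σ : ℚ[X] →ₐ[ℚ] ℝ) : ℚ[X] →+* ℝ) :=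
    transcendental_iff_injective.mp hσ
  have hinjt : Function.Injective ((aeval (σ + n) : ℚ[X] →ₐ[ℚ] ℝ) : ℚ[X] →+* ℝ) :=
    transcendental_iff_injective.mp ht
  let fσ : RatFunc ℚ →+* ℝ := IsFractionRing.lift hinjσ
  let ft : RatFunc ℚ →+* ℝ := IsFractionRing.lift hinjt
  have hfσX : fσ (algebraMap ℚ[X] (RatFunc ℚ) X) = σ := by
    show IsFractionRing.lift hinjσ (algebraMap ℚ[X] (RatFunc ℚ) X) = σ
    rw [IsFractionRing.lift_algebraMap]
    simp
  have hftX : ft (algebraMap ℚ[X] (RatFunc ℚ) X) = σ + n := by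
    show IsFractionRing.lift hinjt (algebraMap ℚ[X] (RatFunc ℚ) X) = σ + n
    rw [IsFractionRing.lift_algebraMap]
    simp
  let _inst : Module (RatFunc ℚ) ℝ := Module.compHom ℝ fσ
  have hsmul : ∀ (r : RatFunc ℚ) (y : ℝ), r • y = fσ r * y := fun r y => rfl
  obtain ⟨φ, hφ⟩ := Module.Projective.exists_dual_ne_zero (RatFunc ℚ) hc
  refine ⟨ft.toAddMonoidHom.comp φ.toAddMonoidHom, ?_, ?_⟩
  · intro y
    show ft (φ (σ * y)) = (σ + n) * ft (φ y)
    have h1 : σ * y = (algebraMap ℚ[X] (RatFunc ℚ) X) • y := by rw [hsmul, hfσX]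
    rw [h1, map_smul, smul_eq_mul, map_mul, hftX]
  · show ft (φ c) ≠ 0
    exact (map_ne_zero ft).mpr hφ

/-- A transcendental bad parameter can be shifted by any natural number. -/
theorem bad_add_nat {ι : Type} [Fintype ι] (τS τE τW : Equiv.Perm ι) (σ : ℝ)
    (hσ : Transcendental ℚ σ) (hbad : σ ∈ badSet τS τE τW) (n : ℕ) :
    σ + n ∈ badSet τS τE τW := by
  obtain ⟨u, hu, hnf⟩ := hbad
  have hex : ∃ c : ℝ, c ≠ 0 ∧ ∃ (τ : Equiv.Perm ι) (j : ι),
      (τ = τS ∨ τ = τE ∨ τ = τW) ∧ c = u (τ j) - u j := by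
    by_contra hcon
    apply hnf
    have hall : ∀ (τ : Equiv.Perm ι) (j : ι), (τ = τS ∨ τ = τE ∨ τ = τW) → u (τ j) = u j := by
      intro τ j hτ
      by_contra hne
      exact hcon ⟨u (τ j) - u j, sub_ne_zero.mpr hne, τ, j, hτ, rfl⟩
    show (∀ j, u (τS j) = u j) ∧ (∀ j, u (τE j) = u j) ∧ (∀ j, u (τW j) = u j)
    exact ⟨fun j => hall τS j (Or.inl rfl), fun j => hall τE j (Or.inr (Or.inl rfl)),
      fun j => hall τW j (Or.inr (Or.inr rfl))⟩
  obtain ⟨c, hc, τ, j0, hτ, hcdef⟩ := hex
  obtain ⟨θ, hθ, hθc⟩ := exists_shift_map σ hσ n c hc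
  refine ⟨fun j => θ (u j), ?_, ?_⟩
  · intro j
    have h := congrArg θ (hu j)
    rw [hθ, map_sub, map_sub, map_add] at h
    have h2 : θ (2 * u j) = 2 * θ (u j) := by rw [two_mul, map_add, two_mul]
    rw [h2] at h
    exact h
  · intro hfix
    apply hθc
    have hfix' : (∀ j, θ (u (τS j)) = θ (u j)) ∧ (∀ j, θ (u (τE j)) = θ (u j)) ∧
        (∀ j, θ (u (τW j)) = θ (u j)) := hfix
    have h3 : θ (u (τ j0)) = θ (u j0) := by
      rcases hτ with rfl | rfl | rfl
      · exact hfix'.1 j0
      · exact hfix'.2.1 j0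
      · exact hfix'.2.2 j0
    rw [hcdef, map_sub, h3, sub_self]

/-- Every bad parameter of a triple of permutations of a finite set is algebraic. -/
theorem badSet_algebraic {ι : Type} [Fintype ι] (τS τE τW : Equiv.Perm ι) (σ : ℝ)
    (hbad : σ ∈ badSet τS τE τW) : IsAlgebraic ℚ σ := by
  by_contra hσ
  have hinf : (badSet τS τE τW).Infinite := by
    apply Set.infinite_of_injective_forall_mem (f := fun n : ℕ => σ + n)
    · intro a b hab
      have h1 : (a : ℝ) = b := by simpa using hab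
      exact_mod_cast h1
    · intro n
      exact bad_add_nat τS τE τW σ hσ hbad n
  exact hinf (badSet_finite τS τE τW)

/-- If the midpoint of `E`, `W` is the point `N + (σ/2) (S - N)` of the line `NS` (`N ≠ S`) and
the four points form a subtransitive set, then `σ` is algebraic. -/
theorem bisected_algebraic (σ : ℝ)
    (h : ∃ (d : ℕ) (N S E W : EuclideanSpace ℝ (Fin d)), N ≠ S ∧
      E + W - (2 : ℝ) • N = σ • (S - N) ∧
      IsSubtransitive ({N, S, E, W} : Finset (EuclideanSpace ℝ (Fin d)))) :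
    IsAlgebraic ℚ σ := by
  obtain ⟨d, N, S, E, W, hNS, hrel, n, X, f, hX, hf, hmem⟩ := h
  have hrel' := relation_of_dist_eq N S E W σ hrel f hf
  have hNS' : f N ≠ f S := by
    intro h
    apply hNS
    have h1 := hf N (by simp) S (by simp)
    rw [h, dist_self] at h1
    exact dist_eq_zero.1 h1.symm
  obtain ⟨τS, τE, τW, hσ⟩ := sigma_mem_bad X hX (f N) (f S) (f E) (f W)
    (hmem N (by simp)) (hmem S (by simp)) (hmem E (by simp)) (hmem W (by simp)) hNS' σ hrel'
  exact badSet_algebraic τS τE τW σ hσ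

/-- A subtransitive cyclic kite `K(s)`, `0 < s < 1`, has an algebraic parameter `s`. -/
theorem kite_algebraic (s : ℝ) (h0 : 0 < s) (h1 : s < 1) (hsub : IsSubtransitive (kite s)) :
    IsAlgebraic ℚ s := by
  obtain ⟨-, -, hrel, hne⟩ := kite_facts s h0 h1
  have h := bisected_algebraic (1 - s)
    ⟨2, !₂[0, 1], !₂[0, -1], !₂[Real.sqrt (1 - s ^ 2), s], !₂[-Real.sqrt (1 - s ^ 2), s],
      hne, hrel, hsub⟩
  have h2 : IsAlgebraic ℚ (algebraMap ℚ ℝ 1 - (1 - s)) := (isAlgebraic_algebraMap (1 : ℚ)).sub h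
  simpa using h2

/-- The Liouville number `∑ 3 ^ (-k!)` lies in `(0, 1)`. -/
theorem liouville_three_mem : 0 < liouvilleNumber 3 ∧ liouvilleNumber 3 < 1 := by
  have hm : (1 : ℝ) < 3 := by norm_num
  have hsplit := LiouvilleNumber.partialSum_add_remainder hm 1
  have hpos := LiouvilleNumber.remainder_pos hm 1
  have hlt : LiouvilleNumber.remainder 3 1 < 1 / 3 := by
    have h := LiouvilleNumber.remainder_lt 1 (by norm_num : (2 : ℝ) ≤ 3)
    norm_num [Nat.factorial] at h
    linarith
  have hps : LiouvilleNumber.partialSum 3 1 = 2 / 3 := by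
    unfold LiouvilleNumber.partialSum
    rw [Finset.sum_range_succ, Finset.sum_range_one]
    norm_num [Nat.factorial]
  constructor <;> linarith

/-- The Liouville number `∑ 3 ^ (-k!)` is transcendental over `ℚ`. -/
theorem liouville_three_transcendental : Transcendental ℚ (liouvilleNumber 3) := by
  have h := transcendental_liouvilleNumber (m := 3) (by norm_num)
  simp only [Nat.cast_ofNat] at h
  intro halg
  exact h ((IsFractionRing.isAlgebraic_iff ℤ ℚ ℝ).mpr halg)

/-- The cyclic kite whose parameter is the Liouville number `∑ 3 ^ (-k!)` is not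
subtransitive. -/
theorem kite_liouville_not_subtransitive : ¬ IsSubtransitive (kite (liouvilleNumber 3)) :=
  fun hsub => liouville_three_transcendental
    (kite_algebraic _ liouville_three_mem.1 liouville_three_mem.2 hsub)

end Vale.Agent.Lib.P058
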