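import Mathlib

namespace Vale.Agent.Lib.P058

/-- A finite set `X` of a Euclidean space is transitive: the isometries of the space that map
`X` onto itself act transitively on `X`. -/
def IsTransitive {n : ℕ} (X : Finset (EuclideanSpace ℝ (Fin n))) : Prop :=
  ∀ x ∈ X, ∀ y ∈ X, ∃ φ : EuclideanSpace ℝ (Fin n) ≃ᵢ EuclideanSpace ℝ (Fin n),
    φ '' (X : Set (EuclideanSpace ℝ (Fin n))) = X ∧ φ x = y

/-- A finite set `A` is subtransitive: it is congruent to a subset of a finite transitive set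
(of a Euclidean space of some dimension `n`). -/
def IsSubtransitive {d : ℕ} (A : Finset (EuclideanSpace ℝ (Fin d))) : Prop :=
  ∃ (n : ℕ) (X : Finset (EuclideanSpace ℝ (Fin n)))
    (f : EuclideanSpace ℝ (Fin d) → EuclideanSpace ℝ (Fin n)),
    IsTransitive X ∧ (∀ a ∈ A, ∀ b ∈ A, dist (f a) (f b) = dist a b) ∧ ∀ a ∈ A, f a ∈ X

/-- The cyclic (right) kite with parameter `s`: the four points `(0,1)`, `(0,-1)`,
`(√(1-s²), s)`, `(-√(1-s²), s)` of the unit circle. -/
noncomputable def kite (s : ℝ) : Finset (EuclideanSpace ℝ (Fin 2)) :=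
  {!₂[0, 1], !₂[0, -1], !₂[Real.sqrt (1 - s ^ 2), s], !₂[-Real.sqrt (1 - s ^ 2), s]}

end Vale.Agent.Lib.P058
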