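import Mathlib

namespace Vale.Agent.Lib.P058

/-- vectors fixed by the three coordinate permutations -/
def fixSub {ι : Type} (τS τE τW : Equiv.Perm ι) : Submodule ℝ (ι → ℝ) where
  carrier := {u | (∀ j, u (τS j) = u j) ∧ (∀ j, u (τE j) = u j) ∧ (∀ j, u (τW j) = u j)}
  add_mem' := by
    rintro u w ⟨h1, h2, h3⟩ ⟨h1', h2', h3'⟩
    exact ⟨fun j => by simp [h1 j, h1' j], fun j => by simp [h2 j, h2' j],
      fun j => by simp [h3 j, h3' j]⟩
  zero_mem' := ⟨fun _ => rfl, fun _ => rfl, fun _ => rfl⟩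
  smul_mem' := by
    rintro c u ⟨h1, h2, h3⟩
    exact ⟨fun j => by simp [h1 j], fun j => by simp [h2 j], fun j => by simp [h3 j]⟩

/-- the bad parameters of a triple of permutations -/
def badSet {ι : Type} (τS τE τW : Equiv.Perm ι) : Set ℝ :=
  {σ | ∃ u : ι → ℝ, (∀ j, u (τE j) + u (τW j) - 2 * u j = σ * (u (τS j) - u j)) ∧
    u ∉ fixSub τS τE τW}

/-- the solution space of the parameter equation -/
def kSub {ι : Type} (τS τE τW : Equiv.Perm ι) (σ : ℝ) : Submodule ℝ (ι → ℝ) where
  carrier := {u | ∀ j, u (τE j) + u (τW j) - 2 * u j = σ * (u (τS j) - u j)}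
  add_mem' := by
    intro u w hu hw j
    have h1 := hu j
    have h2 := hw j
    simp only [Pi.add_apply]
    linarith
  zero_mem' := by
    intro j
    simp
  smul_mem' := by
    intro c u hu j
    have h1 := hu j
    simp only [Pi.smul_apply, smul_eq_mul]
    linear_combination c * h1

theorem badSet_key {ι : Type} [Fintype ι] (τS τE τW : Equiv.Perm ι) (I : Finset ℝ) :
    ∀ U : ℝ → ι → ℝ, (∀ σ ∈ I, U σ ∈ kSub τS τE τW σ) →
      (∑ σ ∈ I, U σ) ∈ fixSub τS τE τW → ∀ σ ∈ I, U σ ∈ fixSub τS τE τW := by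
  classical
  induction I using Finset.induction_on with
  | empty =>
    intro U _ _ σ hσ
    simp at hσ
  | insert σ1 I' hσ1 ih =>
    intro U hK hf
    have hK' : ∀ σ ∈ insert σ1 I', ∀ j,
        U σ (τE j) + U σ (τW j) - 2 * U σ j = σ * (U σ (τS j) - U σ j) :=
      fun σ hσ => hK σ hσ
    obtain ⟨hfS, hfE, hfW⟩ := id hf
    have sS : ∀ j, ∑ σ ∈ insert σ1 I', (U σ (τS j) - U σ j) = 0 := by
      intro j
      have h := hfS j
      simp only [Finset.sum_apply] at h
      rw [Finset.sum_sub_distrib, h, sub_self]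
    have sE : ∀ j, ∑ σ ∈ insert σ1 I', (U σ (τE j) - U σ j) = 0 := by
      intro j
      have h := hfE j
      simp only [Finset.sum_apply] at h
      rw [Finset.sum_sub_distrib, h, sub_self]
    have sW : ∀ j, ∑ σ ∈ insert σ1 I', (U σ (τW j) - U σ j) = 0 := by
      intro j
      have h := hfW j
      simp only [Finset.sum_apply] at h
      rw [Finset.sum_sub_distrib, h, sub_self]
    have sA : ∀ j, ∑ σ ∈ insert σ1 I', σ * (U σ (τS j) - U σ j) = 0 := by
      intro j
      have h : ∑ σ ∈ insert σ1 I', σ * (U σ (τS j) - U σ j)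
          = ∑ σ ∈ insert σ1 I', ((U σ (τE j) - U σ j) + (U σ (τW j) - U σ j)) := by
        apply Finset.sum_congr rfl
        intro σ hσ
        have h1 := hK' σ hσ j
        linarith
      rw [h, Finset.sum_add_distrib, sE j, sW j, add_zero]
    obtain ⟨z, hz⟩ : ∃ z : ι → ℝ, z = ∑ σ ∈ I', (σ - σ1) • U σ := ⟨_, rfl⟩
    obtain ⟨z', hz'⟩ : ∃ z' : ι → ℝ, z' = ∑ σ ∈ I', ((σ - σ1) * σ) • U σ := ⟨_, rfl⟩
    have zap : ∀ j, z j = ∑ σ ∈ I', (σ - σ1) * U σ j := by
      intro j
      simp [hz, Finset.sum_apply]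
    have z'ap : ∀ j, z' j = ∑ σ ∈ I', ((σ - σ1) * σ) * U σ j := by
      intro j
      simp [hz', Finset.sum_apply]
    have zS : ∀ j, z (τS j) = z j := by
      intro j
      have h1 : z (τS j) - z j = ∑ σ ∈ insert σ1 I', (σ - σ1) * (U σ (τS j) - U σ j) := by
        rw [Finset.sum_insert hσ1, sub_self, zero_mul, zero_add, zap, zap,
          ← Finset.sum_sub_distrib]
        apply Finset.sum_congr rfl
        intro σ _
        ring
      have h2 : ∑ σ ∈ insert σ1 I', (σ - σ1) * (U σ (τS j) - U σ j)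
          = ∑ σ ∈ insert σ1 I', σ * (U σ (τS j) - U σ j)
            - σ1 * ∑ σ ∈ insert σ1 I', (U σ (τS j) - U σ j) := by
        rw [Finset.mul_sum, ← Finset.sum_sub_distrib]
        apply Finset.sum_congr rfl
        intro σ _
        ring
      rw [h2, sA j, sS j] at h1
      linarith
    have zB : ∀ j, z (τE j) + z (τW j) - 2 * z j = z' (τS j) - z' j := by
      intro j
      rw [zap, zap, zap, z'ap, z'ap, Finset.mul_sum, ← Finset.sum_add_distrib,
        ← Finset.sum_sub_distrib, ← Finset.sum_sub_distrib]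
      apply Finset.sum_congr rfl
      intro σ hσ
      have h1 := hK' σ (Finset.mem_insert_of_mem hσ) j
      linear_combination (σ - σ1) * h1
    have hc : ∑ j, (z (τE j) + z (τW j) - 2 * z j) * z j = 0 := by
      have h1 : ∑ j, (z (τE j) + z (τW j) - 2 * z j) * z j
          = ∑ j, z' (τS j) * z (τS j) - ∑ j, z' j * z j := by
        rw [← Finset.sum_sub_distrib]
        apply Finset.sum_congr rfl
        intro j _
        rw [zB j, zS j]
        ring
      rw [h1, Equiv.sum_comp τS (fun j => z' j * z j), sub_self]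
    have hd : ∑ j, ((z (τE j) - z j) ^ 2 + (z (τW j) - z j) ^ 2) = 0 := by
      have e1 : ∑ j, z (τE j) ^ 2 = ∑ j, z j ^ 2 := Equiv.sum_comp τE (fun j => z j ^ 2)
      have e2 : ∑ j, z (τW j) ^ 2 = ∑ j, z j ^ 2 := Equiv.sum_comp τW (fun j => z j ^ 2)
      have h1 : ∑ j, ((z (τE j) - z j) ^ 2 + (z (τW j) - z j) ^ 2)
          = ∑ j, z (τE j) ^ 2 + ∑ j, z (τW j) ^ 2 - 2 * ∑ j, z j ^ 2
            - 2 * ∑ j, (z (τE j) + z (τW j) - 2 * z j) * z j := by
        rw [Finset.mul_sum, Finset.mul_sum, ← Finset.sum_add_distrib,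
          ← Finset.sum_sub_distrib, ← Finset.sum_sub_distrib]
        apply Finset.sum_congr rfl
        intro j _
        ring
      rw [h1, e1, e2, hc]
      ring
    have hterm : ∀ j, (z (τE j) - z j) ^ 2 + (z (τW j) - z j) ^ 2 = 0 := by
      intro j
      exact (Finset.sum_eq_zero_iff_of_nonneg (fun i _ => by positivity)).1 hd j
        (Finset.mem_univ j)
    have zE : ∀ j, z (τE j) = z j := by
      intro j
      have h0 := hterm j
      have h1 : (z (τE j) - z j) ^ 2 = 0 := by
        nlinarith [sq_nonneg (z (τE j) - z j), sq_nonneg (z (τW j) - z j)]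
      have h2 := (pow_eq_zero_iff (n := 2) (by norm_num)).1 h1
      linarith
    have zW : ∀ j, z (τW j) = z j := by
      intro j
      have h0 := hterm j
      have h1 : (z (τW j) - z j) ^ 2 = 0 := by
        nlinarith [sq_nonneg (z (τE j) - z j), sq_nonneg (z (τW j) - z j)]
      have h2 := (pow_eq_zero_iff (n := 2) (by norm_num)).1 h1
      linarith
    have zFix : (∑ σ ∈ I', (σ - σ1) • U σ) ∈ fixSub τS τE τW := by
      rw [← hz]
      exact ⟨zS, zE, zW⟩
    have ih' := ih (fun σ => (σ - σ1) • U σ)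
      (fun σ hσ => (kSub τS τE τW σ).smul_mem _ (hK σ (Finset.mem_insert_of_mem hσ))) zFix
    have hI' : ∀ σ ∈ I', U σ ∈ fixSub τS τE τW := by
      intro σ hσ
      have hne : σ - σ1 ≠ 0 := by
        intro h
        apply hσ1
        rw [sub_eq_zero] at h
        rw [← h]
        exact hσ
      exact ((fixSub τS τE τW).smul_mem_iff hne).1 (ih' σ hσ)
    intro σ hσ
    rcases Finset.mem_insert.1 hσ with h | hσ'
    · have h1 : U σ1 = (∑ σ ∈ insert σ1 I', U σ) - ∑ σ ∈ I', U σ := by
        rw [Finset.sum_insert hσ1]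
        abel
      rw [h, h1]
      exact (fixSub τS τE τW).sub_mem hf ((fixSub τS τE τW).sum_mem hI')
    · exact hI' σ hσ'

theorem badSet_finite {ι : Type} [Fintype ι] (τS τE τW : Equiv.Perm ι) :
    (badSet τS τE τW).Finite := by
  classical
  by_contra hinf
  have hinf' : (badSet τS τE τW).Infinite := hinf
  obtain ⟨t, ht, hcard⟩ := hinf'.exists_subset_card_eq (Fintype.card ι + 1)
  have hw : ∀ σ : ℝ, σ ∈ t → ∃ u : ι → ℝ, u ∈ kSub τS τE τW σ ∧ u ∉ fixSub τS τE τW := by
    intro σ hσ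
    obtain ⟨u, hu1, hu2⟩ := ht hσ
    exact ⟨u, hu1, hu2⟩
  choose! U hU1 hU2 using hw
  have hli : LinearIndependent ℝ (fun i : t => U i) := by
    rw [Fintype.linearIndependent_iff]
    intro g hg i
    have key := badSet_key τS τE τW t
      (fun σ => (if h : σ ∈ t then g ⟨σ, h⟩ else 0) • U σ) ?_ ?_ i i.2
    · simp only [Subtype.coe_eta, dif_pos i.2] at key
      by_contra hgi
      exact hU2 i i.2 (((fixSub τS τE τW).smul_mem_iff hgi).1 key)
    · intro σ hσ
      exact (kSub τS τE τW σ).smul_mem _ (hU1 σ hσ)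
    · have h1 : ∑ σ ∈ t, (if h : σ ∈ t then g ⟨σ, h⟩ else 0) • U σ = ∑ i : t, g i • U i := by
        rw [← Finset.sum_coe_sort t]
        apply Finset.sum_congr rfl
        intro i _
        simp [i.2]
      rw [h1, hg]
      exact (fixSub τS τE τW).zero_mem
  have h2 := hli.fintype_card_le_finrank
  simp at h2
  omega

end Vale.Agent.Lib.P058
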