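import Vale.Agent.Lib.P058.Defs
import Vale.Agent.Lib.P058.Pencil

namespace Vale.Agent.Lib.P058

theorem mem_of_image_eq {V : Type} [MetricSpace V] {X : Finset V} {φ : V ≃ᵢ V}
    (hφ : φ '' (X : Set V) = X) {x : V} (hx : x ∈ X) : φ x ∈ X := by
  have h : φ x ∈ φ '' (X : Set V) := Set.mem_image_of_mem _ (Finset.mem_coe.2 hx)
  rw [hφ] at h
  exact Finset.mem_coe.1 h

theorem symm_mem_of_image_eq {V : Type} [MetricSpace V] {X : Finset V} {φ : V ≃ᵢ V}
    (hφ : φ '' (X : Set V) = X) {x : V} (hx : x ∈ X) : φ.symm x ∈ X := by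
  have h : x ∈ φ '' (X : Set V) := by
    rw [hφ]
    exact Finset.mem_coe.2 hx
  obtain ⟨y, hy, rfl⟩ := h
  rw [IsometryEquiv.symm_apply_apply]
  exact Finset.mem_coe.1 hy

/-- The permutation of the indices of the points of `X` induced by the inverse of an isometry
that maps `X` onto itself. -/
noncomputable def permOf {V : Type} [MetricSpace V] {X : Finset V} (φ : V ≃ᵢ V)
    (hφ : φ '' (X : Set V) = X) : Equiv.Perm (Fin X.card) where
  toFun j := X.equivFin ⟨φ.symm (X.equivFin.symm j : V),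
    symm_mem_of_image_eq hφ (X.equivFin.symm j).2⟩
  invFun j := X.equivFin ⟨φ (X.equivFin.symm j : V), mem_of_image_eq hφ (X.equivFin.symm j).2⟩
  left_inv j := by simp
  right_inv j := by simp

theorem pt_permOf {V : Type} [MetricSpace V] {X : Finset V} (φ : V ≃ᵢ V)
    (hφ : φ '' (X : Set V) = X) (j : Fin X.card) :
    ((X.equivFin.symm (permOf φ hφ j) : X) : V) = φ.symm (X.equivFin.symm j : V) := by
  simp [permOf]

theorem exists_const {V : Type} [NormedAddCommGroup V] [InnerProductSpace ℝ V]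
    (xN xS xE xW : V) (σ : ℝ) (hrel : xE + xW - (2 : ℝ) • xN = σ • (xS - xN)) :
    ∃ κ : ℝ, ∀ z : V, dist z xE ^ 2 + dist z xW ^ 2 - 2 * dist z xN ^ 2
      - σ * (dist z xS ^ 2 - dist z xN ^ 2) = κ := by
  refine ⟨‖xE‖ ^ 2 + ‖xW‖ ^ 2 - 2 * ‖xN‖ ^ 2 - σ * (‖xS‖ ^ 2 - ‖xN‖ ^ 2), fun z => ?_⟩
  have h : inner ℝ z (xE + xW - (2 : ℝ) • xN - σ • (xS - xN)) = 0 := by
    rw [hrel, sub_self, inner_zero_right]
  simp only [inner_sub_right, inner_add_right, inner_smul_right] at h
  simp only [dist_eq_norm, norm_sub_sq_real]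
  linarith

theorem sigma_mem_bad {V : Type} [NormedAddCommGroup V] [InnerProductSpace ℝ V]
    (X : Finset V)
    (hX : ∀ x ∈ X, ∀ y ∈ X, ∃ φ : V ≃ᵢ V, φ '' (X : Set V) = X ∧ φ x = y)
    (xN xS xE xW : V) (hN : xN ∈ X) (hS : xS ∈ X) (hE : xE ∈ X) (hW : xW ∈ X)
    (hNS : xN ≠ xS) (σ : ℝ) (hrel : xE + xW - (2 : ℝ) • xN = σ • (xS - xN)) :
    ∃ τS τE τW : Equiv.Perm (Fin X.card), σ ∈ badSet τS τE τW := by
  obtain ⟨φS, hφS, hS'⟩ := hX xN hN xS hS
  obtain ⟨φE, hφE, hE'⟩ := hX xN hN xE hE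
  obtain ⟨φW, hφW, hW'⟩ := hX xN hN xW hW
  obtain ⟨κ, hκ⟩ := exists_const xN xS xE xW σ hrel
  -- the vector of squared distances to `xN`
  have hu : ∀ (φ : V ≃ᵢ V) (hφ : φ '' (X : Set V) = X) (j : Fin X.card),
      dist ((X.equivFin.symm (permOf φ hφ j) : X) : V) xN ^ 2
        = dist ((X.equivFin.symm j : X) : V) (φ xN) ^ 2 := by
    intro φ hφ j
    rw [pt_permOf, ← φ.dist_eq, IsometryEquiv.apply_symm_apply]
  have hker0 : ∀ j : Fin X.card,
      dist ((X.equivFin.symm (permOf φE hφE j) : X) : V) xN ^ 2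
        + dist ((X.equivFin.symm (permOf φW hφW j) : X) : V) xN ^ 2
        - 2 * dist ((X.equivFin.symm j : X) : V) xN ^ 2
        - σ * (dist ((X.equivFin.symm (permOf φS hφS j) : X) : V) xN ^ 2
          - dist ((X.equivFin.symm j : X) : V) xN ^ 2) = κ := by
    intro j
    rw [hu φE hφE j, hu φW hφW j, hu φS hφS j, hE', hW', hS']
    exact hκ _
  -- summing over `j` shows `κ = 0`
  have hκ0 : κ = 0 := by
    have hsum := Finset.sum_congr (rfl : (Finset.univ : Finset (Fin X.card)) = Finset.univ)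
      (fun j _ => hker0 j)
    simp only [Finset.sum_sub_distrib, Finset.sum_add_distrib, ← Finset.mul_sum] at hsum
    rw [Equiv.sum_comp (permOf φE hφE) (fun j => dist ((X.equivFin.symm j : X) : V) xN ^ 2),
      Equiv.sum_comp (permOf φW hφW) (fun j => dist ((X.equivFin.symm j : X) : V) xN ^ 2),
      Equiv.sum_comp (permOf φS hφS) (fun j => dist ((X.equivFin.symm j : X) : V) xN ^ 2),
      Finset.sum_const, Finset.card_univ, Fintype.card_fin, nsmul_eq_mul] at hsum
    have hcard : (X.card : ℝ) ≠ 0 := by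
      have : 0 < X.card := Finset.card_pos.2 ⟨xN, hN⟩
      exact_mod_cast this.ne'
    have h0 : (X.card : ℝ) * κ = 0 := by linarith
    rcases mul_eq_zero.1 h0 with h | h
    · exact absurd h hcard
    · exact h
  refine ⟨permOf φS hφS, permOf φE hφE, permOf φW hφW,
    fun j => dist ((X.equivFin.symm j : X) : V) xN ^ 2, ?_, ?_⟩
  · intro j
    have := hker0 j
    rw [hκ0] at this
    linarith
  · intro hfix
    have h1 := hfix.1 (X.equivFin ⟨xN, hN⟩)
    simp only at h1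
    rw [hu φS hφS, Equiv.symm_apply_apply, hS'] at h1
    simp only [dist_self] at h1
    have h2 : dist xN xS = 0 := by
      have : dist xN xS ^ 2 = 0 := by simpa using h1
      exact pow_eq_zero_iff (two_ne_zero) |>.1 this
    exact hNS (dist_eq_zero.1 h2)

end Vale.Agent.Lib.P058
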