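import Vale.Agent.Lib.P058.Defs

namespace Vale.Agent.Lib.P058

theorem kite_facts (s : ℝ) (h0 : 0 < s) (h1 : s < 1) :
    (kite s).card = 4 ∧ (∀ p ∈ kite s, ‖p‖ = 1) ∧
      (!₂[Real.sqrt (1 - s ^ 2), s] + !₂[-Real.sqrt (1 - s ^ 2), s] - (2 : ℝ) • !₂[0, 1]
        : EuclideanSpace ℝ (Fin 2)) = (1 - s) • (!₂[0, -1] - !₂[0, 1]) ∧
      (!₂[0, 1] : EuclideanSpace ℝ (Fin 2)) ≠ !₂[0, -1] := by
  have hpos : 0 < 1 - s ^ 2 := by nlinarith
  have hr : 0 < Real.sqrt (1 - s ^ 2) := Real.sqrt_pos.mpr hpos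
  have hsq : Real.sqrt (1 - s ^ 2) ^ 2 = 1 - s ^ 2 := Real.sq_sqrt hpos.le
  set r := Real.sqrt (1 - s ^ 2) with hrdef
  have e01 : (!₂[0, 1] : EuclideanSpace ℝ (Fin 2)) ≠ !₂[0, -1] := by
    intro h
    have h2 := congrArg (fun p : EuclideanSpace ℝ (Fin 2) => p 1) h
    simp at h2
    linarith
  have e02 : (!₂[0, 1] : EuclideanSpace ℝ (Fin 2)) ≠ !₂[r, s] := by
    intro h
    have h2 := congrArg (fun p : EuclideanSpace ℝ (Fin 2) => p 0) h
    simp at h2
    linarith
  have e03 : (!₂[0, 1] : EuclideanSpace ℝ (Fin 2)) ≠ !₂[-r, s] := by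
    intro h
    have h2 := congrArg (fun p : EuclideanSpace ℝ (Fin 2) => p 0) h
    simp at h2
    linarith
  have e12 : (!₂[0, -1] : EuclideanSpace ℝ (Fin 2)) ≠ !₂[r, s] := by
    intro h
    have h2 := congrArg (fun p : EuclideanSpace ℝ (Fin 2) => p 0) h
    simp at h2
    linarith
  have e13 : (!₂[0, -1] : EuclideanSpace ℝ (Fin 2)) ≠ !₂[-r, s] := by
    intro h
    have h2 := congrArg (fun p : EuclideanSpace ℝ (Fin 2) => p 0) h
    simp at h2
    linarith
  have e23 : (!₂[r, s] : EuclideanSpace ℝ (Fin 2)) ≠ !₂[-r, s] := by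
    intro h
    have h2 := congrArg (fun p : EuclideanSpace ℝ (Fin 2) => p 0) h
    simp at h2
    linarith
  refine ⟨?_, ?_, ?_, e01⟩
  · unfold kite
    rw [Finset.card_insert_of_notMem, Finset.card_insert_of_notMem, Finset.card_insert_of_notMem,
      Finset.card_singleton]
    · simpa using e23
    · simp only [Finset.mem_insert, Finset.mem_singleton, not_or]
      exact ⟨e12, e13⟩
    · simp only [Finset.mem_insert, Finset.mem_singleton, not_or]
      exact ⟨e01, e02, e03⟩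
  · intro p hp
    unfold kite at hp
    simp only [Finset.mem_insert, Finset.mem_singleton] at hp
    rcases hp with rfl | rfl | rfl | rfl
    · rw [EuclideanSpace.norm_eq, Fin.sum_univ_two]
      simp
    · rw [EuclideanSpace.norm_eq, Fin.sum_univ_two]
      simp
    · rw [EuclideanSpace.norm_eq, Fin.sum_univ_two]
      simp only [Real.norm_eq_abs, sq_abs]
      have : (!₂[r, s] : EuclideanSpace ℝ (Fin 2)) 0 ^ 2 + (!₂[r, s] : EuclideanSpace ℝ (Fin 2)) 1 ^ 2 = 1 := by
        simp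
        linarith
      rw [this, Real.sqrt_one]
    · rw [EuclideanSpace.norm_eq, Fin.sum_univ_two]
      simp only [Real.norm_eq_abs, sq_abs]
      have : (!₂[-r, s] : EuclideanSpace ℝ (Fin 2)) 0 ^ 2 + (!₂[-r, s] : EuclideanSpace ℝ (Fin 2)) 1 ^ 2 = 1 := by
        simp
        linarith
      rw [this, Real.sqrt_one]
  · ext i
    fin_cases i
    · simp
    · simp
      ring

end Vale.Agent.Lib.P058
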