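import Mathlib

namespace Vale.Agent.Lib.P058

/-- expansion of the squared norm of `x + y - σ • z` -/
theorem b_norm_expand {V : Type*} [NormedAddCommGroup V] [InnerProductSpace ℝ V] (x y z : V)
    (σ : ℝ) :
    ‖x + y - σ • z‖ ^ 2 = ‖x‖ ^ 2 + ‖y‖ ^ 2 + σ ^ 2 * ‖z‖ ^ 2 + 2 * inner ℝ x y
      - 2 * σ * inner ℝ x z - 2 * σ * inner ℝ y z := by
  rw [← real_inner_self_eq_norm_sq, ← real_inner_self_eq_norm_sq, ← real_inner_self_eq_norm_sq,
    ← real_inner_self_eq_norm_sq]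
  simp only [inner_add_left, inner_add_right, inner_sub_left, inner_sub_right, inner_smul_left,
    inner_smul_right, real_inner_comm, RCLike.conj_to_real]
  ring

/-- polarization: the inner product is determined by three norms -/
theorem b_inner_eq {V : Type*} [NormedAddCommGroup V] [InnerProductSpace ℝ V] (x y : V) :
    inner ℝ x y = (‖x‖ ^ 2 + ‖y‖ ^ 2 - ‖x - y‖ ^ 2) / 2 := by
  rw [norm_sub_sq_real]
  ring

/-- general form: if the pairwise norms of `a, b, c` and of `a', b', c'` agree, a linear relation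
`a + b = σ • c` transfers. -/
theorem b_relation_general {V V' : Type*} [NormedAddCommGroup V] [InnerProductSpace ℝ V]
    [NormedAddCommGroup V'] [InnerProductSpace ℝ V'] (a b c : V) (a' b' c' : V') (σ : ℝ)
    (ha : ‖a'‖ = ‖a‖) (hb : ‖b'‖ = ‖b‖) (hc : ‖c'‖ = ‖c‖)
    (hab : ‖a' - b'‖ = ‖a - b‖) (hac : ‖a' - c'‖ = ‖a - c‖) (hbc : ‖b' - c'‖ = ‖b - c‖)
    (hrel : a + b = σ • c) : a' + b' = σ • c' := by
  have h0 : ‖a + b - σ • c‖ ^ 2 = 0 := by
    rw [hrel, sub_self, norm_zero]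
    ring
  have h1 : ‖a' + b' - σ • c'‖ ^ 2 = 0 := by
    rw [b_norm_expand, b_inner_eq a' b', b_inner_eq a' c', b_inner_eq b' c', ha, hb, hc, hab, hac,
      hbc, ← b_inner_eq a b, ← b_inner_eq a c, ← b_inner_eq b c, ← b_norm_expand]
    exact h0
  have h2 : ‖a' + b' - σ • c'‖ = 0 := by
    exact pow_eq_zero_iff (two_ne_zero) |>.mp h1
  exact sub_eq_zero.mp (norm_eq_zero.mp h2)

theorem relation_of_dist_eq {d n : ℕ} (N S E W : EuclideanSpace ℝ (Fin d)) (σ : ℝ)
    (hrel : E + W - (2 : ℝ) • N = σ • (S - N))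
    (f : EuclideanSpace ℝ (Fin d) → EuclideanSpace ℝ (Fin n))
    (hf : ∀ a ∈ ({N, S, E, W} : Finset (EuclideanSpace ℝ (Fin d))),
      ∀ b ∈ ({N, S, E, W} : Finset (EuclideanSpace ℝ (Fin d))), dist (f a) (f b) = dist a b) :
    f E + f W - (2 : ℝ) • f N = σ • (f S - f N) := by
  have mN : N ∈ ({N, S, E, W} : Finset (EuclideanSpace ℝ (Fin d))) := by simp
  have mS : S ∈ ({N, S, E, W} : Finset (EuclideanSpace ℝ (Fin d))) := by simp
  have mE : E ∈ ({N, S, E, W} : Finset (EuclideanSpace ℝ (Fin d))) := by simp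
  have mW : W ∈ ({N, S, E, W} : Finset (EuclideanSpace ℝ (Fin d))) := by simp
  have ha : ‖f E - f N‖ = ‖E - N‖ := by
    rw [← dist_eq_norm, ← dist_eq_norm]; exact hf E mE N mN
  have hb : ‖f W - f N‖ = ‖W - N‖ := by
    rw [← dist_eq_norm, ← dist_eq_norm]; exact hf W mW N mN
  have hc : ‖f S - f N‖ = ‖S - N‖ := by
    rw [← dist_eq_norm, ← dist_eq_norm]; exact hf S mS N mN
  have hab : ‖(f E - f N) - (f W - f N)‖ = ‖(E - N) - (W - N)‖ := by
    rw [sub_sub_sub_cancel_right, sub_sub_sub_cancel_right, ← dist_eq_norm, ← dist_eq_norm]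
    exact hf E mE W mW
  have hac : ‖(f E - f N) - (f S - f N)‖ = ‖(E - N) - (S - N)‖ := by
    rw [sub_sub_sub_cancel_right, sub_sub_sub_cancel_right, ← dist_eq_norm, ← dist_eq_norm]
    exact hf E mE S mS
  have hbc : ‖(f W - f N) - (f S - f N)‖ = ‖(W - N) - (S - N)‖ := by
    rw [sub_sub_sub_cancel_right, sub_sub_sub_cancel_right, ← dist_eq_norm, ← dist_eq_norm]
    exact hf W mW S mS
  have hrel' : (E - N) + (W - N) = σ • (S - N) := by
    rw [← hrel, two_smul]
    abel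
  have h := b_relation_general (E - N) (W - N) (S - N) (f E - f N) (f W - f N) (f S - f N) σ
    ha hb hc hab hac hbc hrel'
  rw [← h, two_smul]
  abel

end Vale.Agent.Lib.P058
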