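import Vale.Agent.Lib.P058.Extract
import Vale.Agent.Lib.P058.Polar
import Vale.Agent.Lib.P058.KiteFacts

namespace Vale.Agent.Lib.P058

/-- Four points `N ≠ S`, `E`, `W` such that the midpoint of `E`, `W` is the point
`N + (σ/2) (S - N)` of the line `NS` can form a subtransitive set only for countably many
values of the ratio `σ`. -/
theorem bisected_countable :
    Set.Countable {σ : ℝ | ∃ (d : ℕ) (N S E W : EuclideanSpace ℝ (Fin d)), N ≠ S ∧
      E + W - (2 : ℝ) • N = σ • (S - N) ∧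
      IsSubtransitive ({N, S, E, W} : Finset (EuclideanSpace ℝ (Fin d)))} := by
  have hsub : {σ : ℝ | ∃ (d : ℕ) (N S E W : EuclideanSpace ℝ (Fin d)), N ≠ S ∧
      E + W - (2 : ℝ) • N = σ • (S - N) ∧
      IsSubtransitive ({N, S, E, W} : Finset (EuclideanSpace ℝ (Fin d)))} ⊆
      ⋃ p : (Σ m : ℕ, Equiv.Perm (Fin m) × Equiv.Perm (Fin m) × Equiv.Perm (Fin m)),
        badSet p.2.1 p.2.2.1 p.2.2.2 := by
    rintro σ ⟨d, N, S, E, W, hNS, hrel, n, X, f, hX, hf, hmem⟩
    have hrel' := relation_of_dist_eq N S E W σ hrel f hf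
    have hNS' : f N ≠ f S := by
      intro h
      apply hNS
      have h1 := hf N (by simp) S (by simp)
      rw [h, dist_self] at h1
      exact dist_eq_zero.1 h1.symm
    obtain ⟨τS, τE, τW, hσ⟩ := sigma_mem_bad X hX (f N) (f S) (f E) (f W)
      (hmem N (by simp)) (hmem S (by simp)) (hmem E (by simp)) (hmem W (by simp)) hNS' σ hrel'
    exact Set.mem_iUnion.2 ⟨⟨X.card, τS, τE, τW⟩, hσ⟩
  exact (Set.countable_iUnion fun p => (badSet_finite _ _ _).countable).mono hsub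

theorem kite_countable :
    Set.Countable {s : ℝ | 0 < s ∧ s < 1 ∧ IsSubtransitive (kite s)} := by
  refine (bisected_countable.preimage_of_injOn (f := fun s : ℝ => 1 - s)
    (fun a _ b _ hab => by simpa using hab)).mono ?_
  rintro s ⟨h0, h1, hsub⟩
  obtain ⟨-, -, hrel, hne⟩ := kite_facts s h0 h1
  exact ⟨2, !₂[0, 1], !₂[0, -1], !₂[Real.sqrt (1 - s ^ 2), s], !₂[-Real.sqrt (1 - s ^ 2), s],
    hne, hrel, hsub⟩

theorem exists_kite_not_subtransitive :
    ∃ s : ℝ, 0 < s ∧ s < 1 ∧ ¬ IsSubtransitive (kite s) := by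
  by_contra hcon
  have hsub : Set.Ioo (0 : ℝ) 1 ⊆ {s : ℝ | 0 < s ∧ s < 1 ∧ IsSubtransitive (kite s)} := by
    intro s hs
    exact ⟨hs.1, hs.2, by_contra fun h => hcon ⟨s, hs.1, hs.2, h⟩⟩
  have h : (Set.Ioo (0 : ℝ) 1).Countable := kite_countable.mono hsub
  rw [Cardinal.Real.Ioo_countable_iff] at h
  exact absurd h (by norm_num)

end Vale.Agent.Lib.P058
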