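import Vale.Agent.Lib.P058.Weighted

/-!
# P058: an explicit two parameter family of cyclic quadrilaterals

`orthoQuad x y` has the vertices `(0, -x)`, `(0, x y²)`, `(-y, 0)`, `(x² y, 0)`.  For `x, y > 0`
these are four points of a circle; the diagonals lie on the coordinate axes, meet at the origin
and are divided there in the ratios `1 : y²` and `1 : x²`.
-/

namespace Vale.Agent.Lib.P058

/-- The quadrilateral with the vertices `(0, -x)`, `(0, x y²)`, `(-y, 0)`, `(x² y, 0)`. -/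
noncomputable def orthoQuad (x y : ℝ) : Finset (EuclideanSpace ℝ (Fin 2)) :=
  {!₂[0, -x], !₂[0, x * y ^ 2], !₂[-y, 0], !₂[x ^ 2 * y, 0]}

theorem orthoQuad_card (x y : ℝ) (hx : 0 < x) (hy : 0 < y) : (orthoQuad x y).card = 4 := by
  have hxy : 0 < x * y ^ 2 := by positivity
  have hxy' : 0 < x ^ 2 * y := by positivity
  have e01 : (!₂[0, -x] : EuclideanSpace ℝ (Fin 2)) ≠ !₂[0, x * y ^ 2] := by
    intro h
    have h2 := congrArg (fun p : EuclideanSpace ℝ (Fin 2) => p 1) h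
    simp at h2
    linarith
  have e02 : (!₂[0, -x] : EuclideanSpace ℝ (Fin 2)) ≠ !₂[-y, 0] := by
    intro h
    have h2 := congrArg (fun p : EuclideanSpace ℝ (Fin 2) => p 1) h
    simp at h2
    linarith
  have e03 : (!₂[0, -x] : EuclideanSpace ℝ (Fin 2)) ≠ !₂[x ^ 2 * y, 0] := by
    intro h
    have h2 := congrArg (fun p : EuclideanSpace ℝ (Fin 2) => p 1) h
    simp at h2
    linarith
  have e12 : (!₂[0, x * y ^ 2] : EuclideanSpace ℝ (Fin 2)) ≠ !₂[-y, 0] := by
    intro h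
    have h2 := congrArg (fun p : EuclideanSpace ℝ (Fin 2) => p 0) h
    simp at h2
    linarith
  have e13 : (!₂[0, x * y ^ 2] : EuclideanSpace ℝ (Fin 2)) ≠ !₂[x ^ 2 * y, 0] := by
    intro h
    have h2 := congrArg (fun p : EuclideanSpace ℝ (Fin 2) => p 0) h
    simp only [Matrix.cons_val_zero] at h2
    linarith
  have e23 : (!₂[-y, 0] : EuclideanSpace ℝ (Fin 2)) ≠ !₂[x ^ 2 * y, 0] := by
    intro h
    have h2 := congrArg (fun p : EuclideanSpace ℝ (Fin 2) => p 0) h
    simp only [Matrix.cons_val_zero] at h2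
    linarith
  unfold orthoQuad
  rw [Finset.card_insert_of_notMem, Finset.card_insert_of_notMem, Finset.card_insert_of_notMem,
    Finset.card_singleton]
  · simpa using e23
  · simp only [Finset.mem_insert, Finset.mem_singleton, not_or]
    exact ⟨e12, e13⟩
  · simp only [Finset.mem_insert, Finset.mem_singleton, not_or]
    exact ⟨e01, e02, e03⟩

theorem orthoQuad_concyclic (x y : ℝ) :
    ∃ (c : EuclideanSpace ℝ (Fin 2)) (r : ℝ), ∀ p ∈ orthoQuad x y, dist p c = r := by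
  refine ⟨!₂[(x ^ 2 * y - y) / 2, (x * y ^ 2 - x) / 2],
    Real.sqrt (((x ^ 2 * y - y) / 2) ^ 2 + ((x * y ^ 2 - x) / 2) ^ 2 + x ^ 2 * y ^ 2), ?_⟩
  intro p hp
  unfold orthoQuad at hp
  simp only [Finset.mem_insert, Finset.mem_singleton] at hp
  rcases hp with rfl | rfl | rfl | rfl
  · rw [EuclideanSpace.dist_eq, Fin.sum_univ_two]
    congr 1
    simp only [Real.dist_eq, sq_abs, Matrix.cons_val_zero, Matrix.cons_val_one]
    ring
  · rw [EuclideanSpace.dist_eq, Fin.sum_univ_two]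
    congr 1
    simp only [Real.dist_eq, sq_abs, Matrix.cons_val_zero, Matrix.cons_val_one]
    ring
  · rw [EuclideanSpace.dist_eq, Fin.sum_univ_two]
    congr 1
    simp only [Real.dist_eq, sq_abs, Matrix.cons_val_zero, Matrix.cons_val_one]
    ring
  · rw [EuclideanSpace.dist_eq, Fin.sum_univ_two]
    congr 1
    simp only [Real.dist_eq, sq_abs, Matrix.cons_val_zero, Matrix.cons_val_one]
    ring

theorem orthoQuad_rel (x y : ℝ) (hy : 0 < y) :
    ((x ^ 2) • (!₂[-y, 0] - !₂[0, -x]) + (1 : ℝ) • (!₂[x ^ 2 * y, 0] - !₂[0, -x])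
      : EuclideanSpace ℝ (Fin 2))
      = ((1 + x ^ 2) / (1 + y ^ 2)) • (!₂[0, x * y ^ 2] - !₂[0, -x]) := by
  have hy2 : (1 + y ^ 2) ≠ 0 := by positivity
  ext i
  fin_cases i
  · simp
  · simp
    field_simp
    ring

/-- If a field `K` with a map to the reals contains `x`, and `orthoQuad x y` (`x, y > 0`) is
subtransitive, then `y` is algebraic over `K`. -/
theorem orthoQuad_algebraicK (K : Type) [Field K] [Algebra K ℝ] (xK : K) (x y : ℝ)
    (hxK : algebraMap K ℝ xK = x) (hx : 0 < x) (hy : 0 < y)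
    (hsub : IsSubtransitive (orthoQuad x y)) : IsAlgebraic K y := by
  obtain ⟨n, X, f, hX, hf, hmem⟩ := hsub
  unfold orthoQuad at hf hmem
  have hrel' := relation_of_dist_eqW (!₂[0, -x]) (!₂[0, x * y ^ 2]) (!₂[-y, 0]) (!₂[x ^ 2 * y, 0])
    (x ^ 2) 1 ((1 + x ^ 2) / (1 + y ^ 2)) (orthoQuad_rel x y hy) f hf
  have hNS : (!₂[0, -x] : EuclideanSpace ℝ (Fin 2)) ≠ !₂[0, x * y ^ 2] := by
    intro h
    have h2 := congrArg (fun p : EuclideanSpace ℝ (Fin 2) => p 1) h
    simp at h2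
    have hxy : 0 < x * y ^ 2 := by positivity
    linarith
  have hNS' : f (!₂[0, -x]) ≠ f (!₂[0, x * y ^ 2]) := by
    intro h
    apply hNS
    have h1 := hf (!₂[0, -x]) (by simp) (!₂[0, x * y ^ 2]) (by simp)
    rw [h, dist_self] at h1
    exact dist_eq_zero.1 h1.symm
  obtain ⟨τS, τE, τW, hσ⟩ := nu_mem_badW X hX (f (!₂[0, -x])) (f (!₂[0, x * y ^ 2]))
    (f (!₂[-y, 0])) (f (!₂[x ^ 2 * y, 0]))
    (hmem _ (by simp)) (hmem _ (by simp)) (hmem _ (by simp)) (hmem _ (by simp)) hNS'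
    (x ^ 2) 1 ((1 + x ^ 2) / (1 + y ^ 2)) hrel'
  have h1 : algebraMap K ℝ (xK ^ 2) = x ^ 2 := by rw [map_pow, hxK]
  have h2 : algebraMap K ℝ (1 : K) = 1 := map_one _
  have hσ' : (1 + x ^ 2) / (1 + y ^ 2)
      ∈ badSetW (algebraMap K ℝ (xK ^ 2)) (algebraMap K ℝ (1 : K)) τS τE τW := by
    rw [h1, h2]
    exact hσ
  have hν : IsAlgebraic K ((1 + x ^ 2) / (1 + y ^ 2)) :=
    badSetW_algebraic K (xK ^ 2) 1 (by rw [h1]; positivity) (by rw [h2]; exact one_pos)
      τS τE τW _ hσ'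
  have h3 : algebraMap K ℝ (1 + xK ^ 2) = 1 + x ^ 2 := by rw [map_add, map_one, h1]
  have hx2 : (1 + x ^ 2) ≠ 0 := by positivity
  have hy2 : (1 + y ^ 2) ≠ 0 := by positivity
  have h4 : IsAlgebraic K (algebraMap K ℝ (1 + xK ^ 2) * ((1 + x ^ 2) / (1 + y ^ 2))⁻¹
      - algebraMap K ℝ (1 : K)) :=
    ((isAlgebraic_algebraMap _).mul hν.inv).sub (isAlgebraic_algebraMap _)
  have h5 : algebraMap K ℝ (1 + xK ^ 2) * ((1 + x ^ 2) / (1 + y ^ 2))⁻¹
      - algebraMap K ℝ (1 : K) = y ^ 2 := by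
    rw [h3, h2]
    field_simp
    ring
  rw [h5] at h4
  exact h4.of_pow (by norm_num)

/-- For `x, y > 0`, a subtransitive `orthoQuad x y` has `y` algebraic over `ℚ(x)`. -/
theorem orthoQuad_algebraic (x y : ℝ) (hx : 0 < x) (hy : 0 < y)
    (hsub : IsSubtransitive (orthoQuad x y)) :
    IsAlgebraic (IntermediateField.adjoin ℚ {x}) y :=
  orthoQuad_algebraicK (IntermediateField.adjoin ℚ {x}) (IntermediateField.AdjoinSimple.gen ℚ x)
    x y (IntermediateField.AdjoinSimple.algebraMap_gen ℚ x) hx hy hsub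

/-- An explicit cyclic quadrilateral, with no bisected diagonal, that is not subtransitive. -/
theorem orthoQuad_liouville_not_subtransitive :
    ¬ IsSubtransitive (orthoQuad 2 (liouvilleNumber 3)) := by
  intro hsub
  exact liouville_three_transcendental
    (orthoQuad_algebraicK ℚ 2 2 (liouvilleNumber 3) (by norm_num) (by norm_num)
      liouville_three_mem.1 hsub)

end Vale.Agent.Lib.P058
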