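import Vale.Agent.Lib.P058.Algebraic

/-!
# P058: weighted version of the pencil argument

Four points `N ≠ S`, `E`, `W` with `p (E - N) + q (W - N) = ν (S - N)`, `p, q > 0`, inside a
finite transitive set give a solution of a weighted pencil equation for three permutations.
For fixed positive weights the set of such `ν` is finite, and if the weights lie in a subfield
`K` of the reals, every such `ν` is algebraic over `K`.
-/

namespace Vale.Agent.Lib.P058

open Polynomial

/-- the solution space of the weighted parameter equation -/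
def kSubW {ι : Type} (p q : ℝ) (τS τE τW : Equiv.Perm ι) (σ : ℝ) : Submodule ℝ (ι → ℝ) where
  carrier := {u | ∀ j, p * (u (τE j) - u j) + q * (u (τW j) - u j) = σ * (u (τS j) - u j)}
  add_mem' := by
    intro u w hu hw j
    have h1 := hu j
    have h2 := hw j
    simp only [Pi.add_apply]
    linear_combination h1 + h2
  zero_mem' := by
    intro j
    simp
  smul_mem' := by
    intro c u hu j
    have h1 := hu j
    simp only [Pi.smul_apply, smul_eq_mul]
    linear_combination c * h1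

/-- the weighted bad parameters -/
def badSetW {ι : Type} (p q : ℝ) (τS τE τW : Equiv.Perm ι) : Set ℝ :=
  {σ | ∃ u : ι → ℝ,
    (∀ j, p * (u (τE j) - u j) + q * (u (τW j) - u j) = σ * (u (τS j) - u j)) ∧
    u ∉ fixSub τS τE τW}

theorem badSetW_key {ι : Type} [Fintype ι] (p q : ℝ) (hp : 0 < p) (hq : 0 < q)
    (τS τE τW : Equiv.Perm ι) (I : Finset ℝ) :
    ∀ U : ℝ → ι → ℝ, (∀ σ ∈ I, U σ ∈ kSubW p q τS τE τW σ) →
      (∑ σ ∈ I, U σ) ∈ fixSub τS τE τW → ∀ σ ∈ I, U σ ∈ fixSub τS τE τW := by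
  classical
  induction I using Finset.induction_on with
  | empty =>
    intro U _ _ σ hσ
    simp at hσ
  | insert σ1 I' hσ1 ih =>
    intro U hK hf
    have hK' : ∀ σ ∈ insert σ1 I', ∀ j,
        p * (U σ (τE j) - U σ j) + q * (U σ (τW j) - U σ j) = σ * (U σ (τS j) - U σ j) :=
      fun σ hσ => hK σ hσ
    obtain ⟨hfS, hfE, hfW⟩ := id hf
    have sS : ∀ j, ∑ σ ∈ insert σ1 I', (U σ (τS j) - U σ j) = 0 := by
      intro j
      have h := hfS j
      simp only [Finset.sum_apply] at h
      rw [Finset.sum_sub_distrib, h, sub_self]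
    have sE : ∀ j, ∑ σ ∈ insert σ1 I', (U σ (τE j) - U σ j) = 0 := by
      intro j
      have h := hfE j
      simp only [Finset.sum_apply] at h
      rw [Finset.sum_sub_distrib, h, sub_self]
    have sW : ∀ j, ∑ σ ∈ insert σ1 I', (U σ (τW j) - U σ j) = 0 := by
      intro j
      have h := hfW j
      simp only [Finset.sum_apply] at h
      rw [Finset.sum_sub_distrib, h, sub_self]
    have sA : ∀ j, ∑ σ ∈ insert σ1 I', σ * (U σ (τS j) - U σ j) = 0 := by
      intro j
      have h : ∑ σ ∈ insert σ1 I', σ * (U σ (τS j) - U σ j)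
          = p * ∑ σ ∈ insert σ1 I', (U σ (τE j) - U σ j)
            + q * ∑ σ ∈ insert σ1 I', (U σ (τW j) - U σ j) := by
        rw [Finset.mul_sum, Finset.mul_sum, ← Finset.sum_add_distrib]
        apply Finset.sum_congr rfl
        intro σ hσ
        have h1 := hK' σ hσ j
        linarith
      rw [h, sE j, sW j, mul_zero, mul_zero, add_zero]
    obtain ⟨z, hz⟩ : ∃ z : ι → ℝ, z = ∑ σ ∈ I', (σ - σ1) • U σ := ⟨_, rfl⟩
    obtain ⟨z', hz'⟩ : ∃ z' : ι → ℝ, z' = ∑ σ ∈ I', ((σ - σ1) * σ) • U σ := ⟨_, rfl⟩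
    have zap : ∀ j, z j = ∑ σ ∈ I', (σ - σ1) * U σ j := by
      intro j
      simp [hz, Finset.sum_apply]
    have z'ap : ∀ j, z' j = ∑ σ ∈ I', ((σ - σ1) * σ) * U σ j := by
      intro j
      simp [hz', Finset.sum_apply]
    have zS : ∀ j, z (τS j) = z j := by
      intro j
      have h1 : z (τS j) - z j = ∑ σ ∈ insert σ1 I', (σ - σ1) * (U σ (τS j) - U σ j) := by
        rw [Finset.sum_insert hσ1, sub_self, zero_mul, zero_add, zap, zap,
          ← Finset.sum_sub_distrib]
        apply Finset.sum_congr rfl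
        intro σ _
        ring
      have h2 : ∑ σ ∈ insert σ1 I', (σ - σ1) * (U σ (τS j) - U σ j)
          = ∑ σ ∈ insert σ1 I', σ * (U σ (τS j) - U σ j)
            - σ1 * ∑ σ ∈ insert σ1 I', (U σ (τS j) - U σ j) := by
        rw [Finset.mul_sum, ← Finset.sum_sub_distrib]
        apply Finset.sum_congr rfl
        intro σ _
        ring
      rw [h2, sA j, sS j] at h1
      linarith
    have zB : ∀ j, p * z (τE j) + q * z (τW j) - (p + q) * z j = z' (τS j) - z' j := by
      intro j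
      have e1 : p * z (τE j) + q * z (τW j) - (p + q) * z j
          = ∑ σ ∈ I', (σ - σ1) * (p * (U σ (τE j) - U σ j) + q * (U σ (τW j) - U σ j)) := by
        rw [zap (τE j), zap (τW j), zap j, Finset.mul_sum, Finset.mul_sum, Finset.mul_sum,
          ← Finset.sum_add_distrib, ← Finset.sum_sub_distrib]
        apply Finset.sum_congr rfl
        intro σ _
        ring
      have e2 : z' (τS j) - z' j
          = ∑ σ ∈ I', (σ - σ1) * (σ * (U σ (τS j) - U σ j)) := by
        rw [z'ap (τS j), z'ap j, ← Finset.sum_sub_distrib]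
        apply Finset.sum_congr rfl
        intro σ _
        ring
      rw [e1, e2]
      apply Finset.sum_congr rfl
      intro σ hσ
      rw [hK' σ (Finset.mem_insert_of_mem hσ) j]
    have hc : ∑ j, (p * z (τE j) + q * z (τW j) - (p + q) * z j) * z j = 0 := by
      have h1 : ∑ j, (p * z (τE j) + q * z (τW j) - (p + q) * z j) * z j
          = ∑ j, z' (τS j) * z (τS j) - ∑ j, z' j * z j := by
        rw [← Finset.sum_sub_distrib]
        apply Finset.sum_congr rfl
        intro j _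
        rw [zB j, zS j]
        ring
      rw [h1, Equiv.sum_comp τS (fun j => z' j * z j), sub_self]
    have hd : ∑ j, (p * (z (τE j) - z j) ^ 2 + q * (z (τW j) - z j) ^ 2) = 0 := by
      have e1 : ∑ j, z (τE j) ^ 2 = ∑ j, z j ^ 2 := Equiv.sum_comp τE (fun j => z j ^ 2)
      have e2 : ∑ j, z (τW j) ^ 2 = ∑ j, z j ^ 2 := Equiv.sum_comp τW (fun j => z j ^ 2)
      have h1 : ∑ j, (p * (z (τE j) - z j) ^ 2 + q * (z (τW j) - z j) ^ 2)
          = p * ∑ j, z (τE j) ^ 2 + q * ∑ j, z (τW j) ^ 2 - (p + q) * ∑ j, z j ^ 2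
            - 2 * ∑ j, (p * z (τE j) + q * z (τW j) - (p + q) * z j) * z j := by
        rw [Finset.mul_sum, Finset.mul_sum, Finset.mul_sum, Finset.mul_sum,
          ← Finset.sum_add_distrib, ← Finset.sum_sub_distrib, ← Finset.sum_sub_distrib]
        apply Finset.sum_congr rfl
        intro j _
        ring
      rw [h1, e1, e2, hc]
      ring
    have hterm : ∀ j, p * (z (τE j) - z j) ^ 2 + q * (z (τW j) - z j) ^ 2 = 0 := by
      intro j
      exact (Finset.sum_eq_zero_iff_of_nonneg (fun i _ =>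
        add_nonneg (mul_nonneg hp.le (sq_nonneg _)) (mul_nonneg hq.le (sq_nonneg _)))).1 hd j
        (Finset.mem_univ j)
    have zE : ∀ j, z (τE j) = z j := by
      intro j
      have h0 := hterm j
      have ha := mul_nonneg hp.le (sq_nonneg (z (τE j) - z j))
      have hb := mul_nonneg hq.le (sq_nonneg (z (τW j) - z j))
      have h1 : p * (z (τE j) - z j) ^ 2 = 0 := by linarith
      have h2 : (z (τE j) - z j) ^ 2 = 0 := (mul_eq_zero.1 h1).resolve_left hp.ne'
      have h3 := (pow_eq_zero_iff (n := 2) (by norm_num)).1 h2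
      linarith
    have zW : ∀ j, z (τW j) = z j := by
      intro j
      have h0 := hterm j
      have ha := mul_nonneg hp.le (sq_nonneg (z (τE j) - z j))
      have hb := mul_nonneg hq.le (sq_nonneg (z (τW j) - z j))
      have h1 : q * (z (τW j) - z j) ^ 2 = 0 := by linarith
      have h2 : (z (τW j) - z j) ^ 2 = 0 := (mul_eq_zero.1 h1).resolve_left hq.ne'
      have h3 := (pow_eq_zero_iff (n := 2) (by norm_num)).1 h2
      linarith
    have zFix : (∑ σ ∈ I', (σ - σ1) • U σ) ∈ fixSub τS τE τW := by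
      rw [← hz]
      exact ⟨zS, zE, zW⟩
    have ih' := ih (fun σ => (σ - σ1) • U σ)
      (fun σ hσ => (kSubW p q τS τE τW σ).smul_mem _ (hK σ (Finset.mem_insert_of_mem hσ))) zFix
    have hI' : ∀ σ ∈ I', U σ ∈ fixSub τS τE τW := by
      intro σ hσ
      have hne : σ - σ1 ≠ 0 := by
        intro h
        apply hσ1
        rw [sub_eq_zero] at h
        rw [← h]
        exact hσ
      exact ((fixSub τS τE τW).smul_mem_iff hne).1 (ih' σ hσ)
    intro σ hσ
    rcases Finset.mem_insert.1 hσ with h | hσ'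
    · have h1 : U σ1 = (∑ σ ∈ insert σ1 I', U σ) - ∑ σ ∈ I', U σ := by
        rw [Finset.sum_insert hσ1]
        abel
      rw [h, h1]
      exact (fixSub τS τE τW).sub_mem hf ((fixSub τS τE τW).sum_mem hI')
    · exact hI' σ hσ'

theorem badSetW_finite {ι : Type} [Fintype ι] (p q : ℝ) (hp : 0 < p) (hq : 0 < q)
    (τS τE τW : Equiv.Perm ι) : (badSetW p q τS τE τW).Finite := by
  classical
  by_contra hinf
  have hinf' : (badSetW p q τS τE τW).Infinite := hinf
  obtain ⟨t, ht, hcard⟩ := hinf'.exists_subset_card_eq (Fintype.card ι + 1)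
  have hw : ∀ σ : ℝ, σ ∈ t → ∃ u : ι → ℝ, u ∈ kSubW p q τS τE τW σ ∧ u ∉ fixSub τS τE τW := by
    intro σ hσ
    obtain ⟨u, hu1, hu2⟩ := ht hσ
    exact ⟨u, hu1, hu2⟩
  choose! U hU1 hU2 using hw
  have hli : LinearIndependent ℝ (fun i : t => U i) := by
    rw [Fintype.linearIndependent_iff]
    intro g hg i
    have key := badSetW_key p q hp hq τS τE τW t
      (fun σ => (if h : σ ∈ t then g ⟨σ, h⟩ else 0) • U σ) ?_ ?_ i i.2
    · simp only [Subtype.coe_eta, dif_pos i.2] at key
      by_contra hgi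
      exact hU2 i i.2 (((fixSub τS τE τW).smul_mem_iff hgi).1 key)
    · intro σ hσ
      exact (kSubW p q τS τE τW σ).smul_mem _ (hU1 σ hσ)
    · have h1 : ∑ σ ∈ t, (if h : σ ∈ t then g ⟨σ, h⟩ else 0) • U σ = ∑ i : t, g i • U i := by
        rw [← Finset.sum_coe_sort t]
        apply Finset.sum_congr rfl
        intro i _
        simp [i.2]
      rw [h1, hg]
      exact (fixSub τS τE τW).zero_mem
  have h2 := hli.fintype_card_le_finrank
  simp at h2
  omega

theorem exists_constW {V : Type} [NormedAddCommGroup V] [InnerProductSpace ℝ V]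
    (xN xS xE xW : V) (p q σ : ℝ)
    (hrel : p • (xE - xN) + q • (xW - xN) = σ • (xS - xN)) :
    ∃ κ : ℝ, ∀ z : V, p * (dist z xE ^ 2 - dist z xN ^ 2) + q * (dist z xW ^ 2 - dist z xN ^ 2)
      - σ * (dist z xS ^ 2 - dist z xN ^ 2) = κ := by
  refine ⟨p * (‖xE‖ ^ 2 - ‖xN‖ ^ 2) + q * (‖xW‖ ^ 2 - ‖xN‖ ^ 2) - σ * (‖xS‖ ^ 2 - ‖xN‖ ^ 2),
    fun z => ?_⟩
  have h : inner ℝ z (p • (xE - xN) + q • (xW - xN) - σ • (xS - xN)) = 0 := by
    rw [hrel, sub_self, inner_zero_right]
  simp only [inner_sub_right, inner_add_right, inner_smul_right] at h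
  simp only [dist_eq_norm, norm_sub_sq_real]
  linarith

theorem nu_mem_badW {V : Type} [NormedAddCommGroup V] [InnerProductSpace ℝ V]
    (X : Finset V)
    (hX : ∀ x ∈ X, ∀ y ∈ X, ∃ φ : V ≃ᵢ V, φ '' (X : Set V) = X ∧ φ x = y)
    (xN xS xE xW : V) (hN : xN ∈ X) (hS : xS ∈ X) (hE : xE ∈ X) (hW : xW ∈ X)
    (hNS : xN ≠ xS) (p q σ : ℝ)
    (hrel : p • (xE - xN) + q • (xW - xN) = σ • (xS - xN)) :
    ∃ τS τE τW : Equiv.Perm (Fin X.card), σ ∈ badSetW p q τS τE τW := by
  obtain ⟨φS, hφS, hS'⟩ := hX xN hN xS hS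
  obtain ⟨φE, hφE, hE'⟩ := hX xN hN xE hE
  obtain ⟨φW, hφW, hW'⟩ := hX xN hN xW hW
  obtain ⟨κ, hκ⟩ := exists_constW xN xS xE xW p q σ hrel
  have hu : ∀ (φ : V ≃ᵢ V) (hφ : φ '' (X : Set V) = X) (j : Fin X.card),
      dist ((X.equivFin.symm (permOf φ hφ j) : X) : V) xN ^ 2
        = dist ((X.equivFin.symm j : X) : V) (φ xN) ^ 2 := by
    intro φ hφ j
    rw [pt_permOf, ← φ.dist_eq, IsometryEquiv.apply_symm_apply]
  have hker0 : ∀ j : Fin X.card,
      p * (dist ((X.equivFin.symm (permOf φE hφE j) : X) : V) xN ^ 2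
          - dist ((X.equivFin.symm j : X) : V) xN ^ 2)
        + q * (dist ((X.equivFin.symm (permOf φW hφW j) : X) : V) xN ^ 2
          - dist ((X.equivFin.symm j : X) : V) xN ^ 2)
        - σ * (dist ((X.equivFin.symm (permOf φS hφS j) : X) : V) xN ^ 2
          - dist ((X.equivFin.symm j : X) : V) xN ^ 2) = κ := by
    intro j
    rw [hu φE hφE j, hu φW hφW j, hu φS hφS j, hE', hW', hS']
    exact hκ _
  have hE0 : ∑ j : Fin X.card, (dist ((X.equivFin.symm (permOf φE hφE j) : X) : V) xN ^ 2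
      - dist ((X.equivFin.symm j : X) : V) xN ^ 2) = 0 := by
    rw [Finset.sum_sub_distrib,
      Equiv.sum_comp (permOf φE hφE) (fun j => dist ((X.equivFin.symm j : X) : V) xN ^ 2),
      sub_self]
  have hW0 : ∑ j : Fin X.card, (dist ((X.equivFin.symm (permOf φW hφW j) : X) : V) xN ^ 2
      - dist ((X.equivFin.symm j : X) : V) xN ^ 2) = 0 := by
    rw [Finset.sum_sub_distrib,
      Equiv.sum_comp (permOf φW hφW) (fun j => dist ((X.equivFin.symm j : X) : V) xN ^ 2),
      sub_self]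
  have hS0 : ∑ j : Fin X.card, (dist ((X.equivFin.symm (permOf φS hφS j) : X) : V) xN ^ 2
      - dist ((X.equivFin.symm j : X) : V) xN ^ 2) = 0 := by
    rw [Finset.sum_sub_distrib,
      Equiv.sum_comp (permOf φS hφS) (fun j => dist ((X.equivFin.symm j : X) : V) xN ^ 2),
      sub_self]
  -- summing over `j` shows `κ = 0`
  have hκ0 : κ = 0 := by
    have hsum : ∑ _j : Fin X.card, κ
        = p * ∑ j : Fin X.card, (dist ((X.equivFin.symm (permOf φE hφE j) : X) : V) xN ^ 2
            - dist ((X.equivFin.symm j : X) : V) xN ^ 2)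
          + q * ∑ j : Fin X.card, (dist ((X.equivFin.symm (permOf φW hφW j) : X) : V) xN ^ 2
            - dist ((X.equivFin.symm j : X) : V) xN ^ 2)
          - σ * ∑ j : Fin X.card, (dist ((X.equivFin.symm (permOf φS hφS j) : X) : V) xN ^ 2
            - dist ((X.equivFin.symm j : X) : V) xN ^ 2) := by
      rw [Finset.mul_sum, Finset.mul_sum, Finset.mul_sum, ← Finset.sum_add_distrib,
        ← Finset.sum_sub_distrib]
      exact Finset.sum_congr rfl (fun j _ => (hker0 j).symm)
    rw [hE0, hW0, hS0, Finset.sum_const, Finset.card_univ, Fintype.card_fin,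
      nsmul_eq_mul] at hsum
    have hcard : (X.card : ℝ) ≠ 0 := by
      have : 0 < X.card := Finset.card_pos.2 ⟨xN, hN⟩
      exact_mod_cast this.ne'
    have h0 : (X.card : ℝ) * κ = 0 := by linarith
    rcases mul_eq_zero.1 h0 with h | h
    · exact absurd h hcard
    · exact h
  refine ⟨permOf φS hφS, permOf φE hφE, permOf φW hφW,
    fun j => dist ((X.equivFin.symm j : X) : V) xN ^ 2, ?_, ?_⟩
  · intro j
    have := hker0 j
    rw [hκ0] at this
    linarith
  · intro hfix
    have h1 := hfix.1 (X.equivFin ⟨xN, hN⟩)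
    simp only at h1
    rw [hu φS hφS, Equiv.symm_apply_apply, hS'] at h1
    simp only [dist_self] at h1
    have h2 : dist xN xS = 0 := by
      have : dist xN xS ^ 2 = 0 := by simpa using h1
      exact pow_eq_zero_iff (two_ne_zero) |>.1 this
    exact hNS (dist_eq_zero.1 h2)

theorem w_norm_expand {V : Type*} [NormedAddCommGroup V] [InnerProductSpace ℝ V] (x y z : V)
    (p q σ : ℝ) :
    ‖p • x + q • y - σ • z‖ ^ 2 = p ^ 2 * ‖x‖ ^ 2 + q ^ 2 * ‖y‖ ^ 2 + σ ^ 2 * ‖z‖ ^ 2
      + 2 * p * q * inner ℝ x y - 2 * p * σ * inner ℝ x z - 2 * q * σ * inner ℝ y z := by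
  rw [← real_inner_self_eq_norm_sq, ← real_inner_self_eq_norm_sq, ← real_inner_self_eq_norm_sq,
    ← real_inner_self_eq_norm_sq]
  simp only [inner_add_left, inner_add_right, inner_sub_left, inner_sub_right, inner_smul_left,
    inner_smul_right, real_inner_comm, RCLike.conj_to_real]
  ring

/-- if the pairwise norms of `a, b, c` and of `a', b', c'` agree, a linear relation
`p • a + q • b = σ • c` transfers. -/
theorem w_relation_general {V V' : Type*} [NormedAddCommGroup V] [InnerProductSpace ℝ V]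
    [NormedAddCommGroup V'] [InnerProductSpace ℝ V'] (a b c : V) (a' b' c' : V') (p q σ : ℝ)
    (ha : ‖a'‖ = ‖a‖) (hb : ‖b'‖ = ‖b‖) (hc : ‖c'‖ = ‖c‖)
    (hab : ‖a' - b'‖ = ‖a - b‖) (hac : ‖a' - c'‖ = ‖a - c‖) (hbc : ‖b' - c'‖ = ‖b - c‖)
    (hrel : p • a + q • b = σ • c) : p • a' + q • b' = σ • c' := by
  have h0 : ‖p • a + q • b - σ • c‖ ^ 2 = 0 := by
    rw [hrel, sub_self, norm_zero]
    ring
  have h1 : ‖p • a' + q • b' - σ • c'‖ ^ 2 = ‖p • a + q • b - σ • c‖ ^ 2 := by
    rw [w_norm_expand, w_norm_expand, b_inner_eq a' b', b_inner_eq a' c', b_inner_eq b' c',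
      b_inner_eq a b, b_inner_eq a c, b_inner_eq b c, ha, hb, hc, hab, hac, hbc]
  rw [h0] at h1
  have h2 : ‖p • a' + q • b' - σ • c'‖ = 0 := pow_eq_zero_iff (two_ne_zero) |>.mp h1
  exact sub_eq_zero.mp (norm_eq_zero.mp h2)

theorem relation_of_dist_eqW {d n : ℕ} (N S E W : EuclideanSpace ℝ (Fin d)) (p q σ : ℝ)
    (hrel : p • (E - N) + q • (W - N) = σ • (S - N))
    (f : EuclideanSpace ℝ (Fin d) → EuclideanSpace ℝ (Fin n))
    (hf : ∀ a ∈ ({N, S, E, W} : Finset (EuclideanSpace ℝ (Fin d))),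
      ∀ b ∈ ({N, S, E, W} : Finset (EuclideanSpace ℝ (Fin d))), dist (f a) (f b) = dist a b) :
    p • (f E - f N) + q • (f W - f N) = σ • (f S - f N) := by
  have mN : N ∈ ({N, S, E, W} : Finset (EuclideanSpace ℝ (Fin d))) := by simp
  have mS : S ∈ ({N, S, E, W} : Finset (EuclideanSpace ℝ (Fin d))) := by simp
  have mE : E ∈ ({N, S, E, W} : Finset (EuclideanSpace ℝ (Fin d))) := by simp
  have mW : W ∈ ({N, S, E, W} : Finset (EuclideanSpace ℝ (Fin d))) := by simp
  have ha : ‖f E - f N‖ = ‖E - N‖ := by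
    rw [← dist_eq_norm, ← dist_eq_norm]; exact hf E mE N mN
  have hb : ‖f W - f N‖ = ‖W - N‖ := by
    rw [← dist_eq_norm, ← dist_eq_norm]; exact hf W mW N mN
  have hc : ‖f S - f N‖ = ‖S - N‖ := by
    rw [← dist_eq_norm, ← dist_eq_norm]; exact hf S mS N mN
  have hab : ‖(f E - f N) - (f W - f N)‖ = ‖(E - N) - (W - N)‖ := by
    rw [sub_sub_sub_cancel_right, sub_sub_sub_cancel_right, ← dist_eq_norm, ← dist_eq_norm]
    exact hf E mE W mW
  have hac : ‖(f E - f N) - (f S - f N)‖ = ‖(E - N) - (S - N)‖ := by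
    rw [sub_sub_sub_cancel_right, sub_sub_sub_cancel_right, ← dist_eq_norm, ← dist_eq_norm]
    exact hf E mE S mS
  have hbc : ‖(f W - f N) - (f S - f N)‖ = ‖(W - N) - (S - N)‖ := by
    rw [sub_sub_sub_cancel_right, sub_sub_sub_cancel_right, ← dist_eq_norm, ← dist_eq_norm]
    exact hf W mW S mS
  exact w_relation_general (E - N) (W - N) (S - N) (f E - f N) (f W - f N) (f S - f N) p q σ
    ha hb hc hab hac hbc hrel

/-- For a field `K` with a map to the reals, a real `σ` transcendental over `K`, a natural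
number `n` and a nonzero real `c` there is an additive map `θ : ℝ → ℝ` that commutes with the
multiplication by elements of `K`, satisfies `θ (σ y) = (σ + n) θ y` and has `θ c ≠ 0`. -/
theorem exists_shift_mapK (K : Type) [Field K] [Algebra K ℝ] (σ : ℝ) (hσ : Transcendental K σ)
    (n : ℕ) (c : ℝ) (hc : c ≠ 0) :
    ∃ θ : ℝ →+ ℝ, (∀ (a : K) (y : ℝ), θ (algebraMap K ℝ a * y) = algebraMap K ℝ a * θ y) ∧
      (∀ y, θ (σ * y) = (σ + n) * θ y) ∧ θ c ≠ 0 := by
  classical
  have ht : Transcendental K (σ + n) := by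
    intro halg
    apply hσ
    have h2 : IsAlgebraic K (σ + (n : ℝ) - algebraMap K ℝ (n : K)) :=
      halg.sub (isAlgebraic_algebraMap _)
    simpa using h2
  have hinjσ : Function.Injective ((aeval σ : K[X] →ₐ[K] ℝ) : K[X] →+* ℝ) :=
    transcendental_iff_injective.mp hσ
  have hinjt : Function.Injective ((aeval (σ + n) : K[X] →ₐ[K] ℝ) : K[X] →+* ℝ) :=
    transcendental_iff_injective.mp ht
  let fσ : RatFunc K →+* ℝ := IsFractionRing.lift hinjσ
  let ft : RatFunc K →+* ℝ := IsFractionRing.lift hinjt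
  have hfσX : fσ (algebraMap K[X] (RatFunc K) X) = σ := by
    show IsFractionRing.lift hinjσ (algebraMap K[X] (RatFunc K) X) = σ
    rw [IsFractionRing.lift_algebraMap]
    simp
  have hftX : ft (algebraMap K[X] (RatFunc K) X) = σ + n := by
    show IsFractionRing.lift hinjt (algebraMap K[X] (RatFunc K) X) = σ + n
    rw [IsFractionRing.lift_algebraMap]
    simp
  have hfσC : ∀ a : K, fσ (algebraMap K[X] (RatFunc K) (C a)) = algebraMap K ℝ a := by
    intro a
    show IsFractionRing.lift hinjσ (algebraMap K[X] (RatFunc K) (C a)) = algebraMap K ℝ a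
    rw [IsFractionRing.lift_algebraMap]
    simp
  have hftC : ∀ a : K, ft (algebraMap K[X] (RatFunc K) (C a)) = algebraMap K ℝ a := by
    intro a
    show IsFractionRing.lift hinjt (algebraMap K[X] (RatFunc K) (C a)) = algebraMap K ℝ a
    rw [IsFractionRing.lift_algebraMap]
    simp
  let _inst : Module (RatFunc K) ℝ := Module.compHom ℝ fσ
  have hsmul : ∀ (r : RatFunc K) (y : ℝ), r • y = fσ r * y := fun r y => rfl
  obtain ⟨φ, hφ⟩ := Module.Projective.exists_dual_ne_zero (RatFunc K) hc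
  refine ⟨ft.toAddMonoidHom.comp φ.toAddMonoidHom, ?_, ?_, ?_⟩
  · intro a y
    show ft (φ (algebraMap K ℝ a * y)) = algebraMap K ℝ a * ft (φ y)
    have h1 : algebraMap K ℝ a * y = (algebraMap K[X] (RatFunc K) (C a)) • y := by
      rw [hsmul, hfσC]
    rw [h1, map_smul, smul_eq_mul, map_mul, hftC]
  · intro y
    show ft (φ (σ * y)) = (σ + n) * ft (φ y)
    have h1 : σ * y = (algebraMap K[X] (RatFunc K) X) • y := by rw [hsmul, hfσX]
    rw [h1, map_smul, smul_eq_mul, map_mul, hftX]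
  · show ft (φ c) ≠ 0
    exact (map_ne_zero ft).mpr hφ

/-- A bad parameter that is transcendental over a field containing the weights can be shifted by
any natural number. -/
theorem bad_add_natW {ι : Type} [Fintype ι] (K : Type) [Field K] [Algebra K ℝ] (pK qK : K)
    (τS τE τW : Equiv.Perm ι) (σ : ℝ) (hσ : Transcendental K σ)
    (hbad : σ ∈ badSetW (algebraMap K ℝ pK) (algebraMap K ℝ qK) τS τE τW) (n : ℕ) :
    σ + n ∈ badSetW (algebraMap K ℝ pK) (algebraMap K ℝ qK) τS τE τW := by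
  obtain ⟨u, hu, hnf⟩ := hbad
  have hex : ∃ c : ℝ, c ≠ 0 ∧ ∃ (τ : Equiv.Perm ι) (j : ι),
      (τ = τS ∨ τ = τE ∨ τ = τW) ∧ c = u (τ j) - u j := by
    by_contra hcon
    apply hnf
    have hall : ∀ (τ : Equiv.Perm ι) (j : ι), (τ = τS ∨ τ = τE ∨ τ = τW) → u (τ j) = u j := by
      intro τ j hτ
      by_contra hne
      exact hcon ⟨u (τ j) - u j, sub_ne_zero.mpr hne, τ, j, hτ, rfl⟩
    show (∀ j, u (τS j) = u j) ∧ (∀ j, u (τE j) = u j) ∧ (∀ j, u (τW j) = u j)
    exact ⟨fun j => hall τS j (Or.inl rfl), fun j => hall τE j (Or.inr (Or.inl rfl)),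
      fun j => hall τW j (Or.inr (Or.inr rfl))⟩
  obtain ⟨c, hc, τ, j0, hτ, hcdef⟩ := hex
  obtain ⟨θ, hθK, hθ, hθc⟩ := exists_shift_mapK K σ hσ n c hc
  refine ⟨fun j => θ (u j), ?_, ?_⟩
  · intro j
    have h := congrArg θ (hu j)
    rw [hθ, map_add, hθK, hθK, map_sub, map_sub, map_sub] at h
    exact h
  · intro hfix
    apply hθc
    have hfix' : (∀ j, θ (u (τS j)) = θ (u j)) ∧ (∀ j, θ (u (τE j)) = θ (u j)) ∧
        (∀ j, θ (u (τW j)) = θ (u j)) := hfix
    have h3 : θ (u (τ j0)) = θ (u j0) := by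
      rcases hτ with rfl | rfl | rfl
      · exact hfix'.1 j0
      · exact hfix'.2.1 j0
      · exact hfix'.2.2 j0
    rw [hcdef, map_sub, h3, sub_self]

/-- Every weighted bad parameter is algebraic over a field containing the (positive) weights. -/
theorem badSetW_algebraic {ι : Type} [Fintype ι] (K : Type) [Field K] [Algebra K ℝ] (pK qK : K)
    (hp : 0 < algebraMap K ℝ pK) (hq : 0 < algebraMap K ℝ qK)
    (τS τE τW : Equiv.Perm ι) (σ : ℝ)
    (hbad : σ ∈ badSetW (algebraMap K ℝ pK) (algebraMap K ℝ qK) τS τE τW) :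
    IsAlgebraic K σ := by
  by_contra hσ
  have hinf : (badSetW (algebraMap K ℝ pK) (algebraMap K ℝ qK) τS τE τW).Infinite := by
    apply Set.infinite_of_injective_forall_mem (f := fun n : ℕ => σ + n)
    · intro a b hab
      have h1 : (a : ℝ) = b := by simpa using hab
      exact_mod_cast h1
    · intro n
      exact bad_add_natW K pK qK τS τE τW σ hσ hbad n
  exact hinf (badSetW_finite _ _ hp hq τS τE τW)

/-- If the segment `EW` and the line `NS` (`N ≠ S`) meet in the point
`E + a (W - E) = N + b (S - N)` with `0 < a < 1`, and the four points form a subtransitive set,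
then `b` is algebraic over the field `ℚ(a)`. -/
theorem diagonal_algebraic (a b : ℝ) (ha0 : 0 < a) (ha1 : a < 1)
    (h : ∃ (d : ℕ) (N S E W : EuclideanSpace ℝ (Fin d)), N ≠ S ∧
      E + a • (W - E) = N + b • (S - N) ∧
      IsSubtransitive ({N, S, E, W} : Finset (EuclideanSpace ℝ (Fin d)))) :
    IsAlgebraic (IntermediateField.adjoin ℚ {a}) b := by
  obtain ⟨d, N, S, E, W, hNS, hrel, n, X, f, hX, hf, hmem⟩ := h
  have hrel0 : (1 - a) • (E - N) + a • (W - N) = b • (S - N) := by
    have e1 : (1 - a) • (E - N) + a • (W - N) = E + a • (W - E) - N := by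
      simp only [sub_smul, smul_sub, one_smul]
      abel
    rw [e1, hrel]
    abel
  have hrel' := relation_of_dist_eqW N S E W (1 - a) a b hrel0 f hf
  have hNS' : f N ≠ f S := by
    intro h
    apply hNS
    have h1 := hf N (by simp) S (by simp)
    rw [h, dist_self] at h1
    exact dist_eq_zero.1 h1.symm
  obtain ⟨τS, τE, τW, hσ⟩ := nu_mem_badW X hX (f N) (f S) (f E) (f W)
    (hmem N (by simp)) (hmem S (by simp)) (hmem E (by simp)) (hmem W (by simp)) hNS'
    (1 - a) a b hrel'
  have hg : algebraMap (IntermediateField.adjoin ℚ {a}) ℝ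
      (IntermediateField.AdjoinSimple.gen ℚ a) = a :=
    IntermediateField.AdjoinSimple.algebraMap_gen ℚ a
  have h1 : algebraMap (IntermediateField.adjoin ℚ {a}) ℝ
      (1 - IntermediateField.AdjoinSimple.gen ℚ a) = 1 - a := by
    rw [map_sub, map_one, hg]
  have hσ' : b ∈ badSetW
      (algebraMap (IntermediateField.adjoin ℚ {a}) ℝ (1 - IntermediateField.AdjoinSimple.gen ℚ a))
      (algebraMap (IntermediateField.adjoin ℚ {a}) ℝ (IntermediateField.AdjoinSimple.gen ℚ a))
      τS τE τW := by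
    rw [h1, hg]
    exact hσ
  refine badSetW_algebraic (IntermediateField.adjoin ℚ {a})
    (1 - IntermediateField.AdjoinSimple.gen ℚ a) (IntermediateField.AdjoinSimple.gen ℚ a)
    ?_ ?_ τS τE τW b hσ'
  · rw [h1]
    linarith
  · rw [hg]
    exact ha0

end Vale.Agent.Lib.P058
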